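import Vale.Agent.P062.Data.Part0
import Vale.Agent.P062.Data.Part1
import Vale.Agent.P062.Data.Part2
import Vale.Agent.P062.Data.Part3
import Vale.Agent.P062.Data.Part4
import Vale.Agent.P062.Data.Part5
import Vale.Agent.P062.Data.Part6
import Vale.Agent.P062.Data.Part7
import Vale.Agent.P062.Data.Part8
import Vale.Agent.P062.Data.Part9
import Vale.Agent.P062.Data.Part10
import Vale.Agent.P062.Data.Part11
import Vale.Agent.P062.Data.Part12
import Vale.Agent.P062.Data.Part13
import Vale.Agent.P062.Data.Part14
import Vale.Agent.P062.Data.Part15

/-!
The certificate.
-/

namespace Vale.Agent.P062

noncomputable def certTable : Table := (.node (.node (.node (.node (.node (.node part0 part32) (.node part16 part48)) (.node (.node part8 part40) (.node part24 part56))) (.node (.node (.node part4 part36) (.node part20 part52)) (.node (.node part12 part44) (.node part28 part60)))) (.node (.node (.node (.node part2 part34) (.node part18 part50)) (.node (.node part10 part42) (.node part26 part58))) (.node (.node (.node part6 part38) (.node part22 part54)) (.node (.node part14 part46) (.node part30 part62))))) (.node (.node (.node (.node (.node part1 part33) (.node part17 part49)) (.node (.node part9 part41) (.node part25 part57))) (.node (.node (.node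 part5 part37) (.node part21 part53)) (.node (.node part13 part45) (.node part29 part61)))) (.node (.node (.node (.node part3 part35) (.node part19 part51)) (.node (.node part11 part43) (.node part27 part59))) (.node (.node (.node part7 part39) (.node part23 part55)) (.node (.node part15 part47) (.node part31 part63))))))

def certSize : ℕ := 42087

def certRoots : List ℕ := [5665, 8997, 19929, 37644, 39104, 41383, 42086]

end Vale.Agent.P062
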